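import Mathlib
import Vale.Agent.P208.Main

open Vale.Agent.P208

/-- There is a doubling subset of sequence space with no bi-Lipschitz embedding into any Euclidean
space. -/
theorem Vale.Agent.Results.P208.LangPlautFalse.result :
    ∃ X : Set (lp (fun _ : ℕ => ℝ) 2),
      (∃ Λ : ℕ, ∀ x ∈ X, ∀ r : ℝ, 0 < r → ∃ s : Finset (lp (fun _ : ℕ => ℝ) 2),
        (↑s : Set (lp (fun _ : ℕ => ℝ) 2)) ⊆ X ∧ s.card ≤ Λ ∧
        X ∩ Metric.closedBall x r ⊆ ⋃ y ∈ s, Metric.ball y (r / 2)) ∧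
      ∀ (k : ℕ) (f : X → EuclideanSpace ℝ (Fin k)) (a D : ℝ), 0 < a →
        ¬ (∀ x y : X, a * dist x y ≤ dist (f x) (f y) ∧
          dist (f x) (f y) ≤ D * a * dist x y) :=
  ⟨example208 unitVec, example_doubling unitVec unitVec_orthonormal,
    fun k f a D ha => example_no_embedding unitVec unitVec_orthonormal k f a D ha⟩
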